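import Vale.Agent.P235.ST.H645.Non
import Vale.Agent.P235.ST.H690.Ops

/-! P235 (helper645): the class `AllOps` over all closed surfaces. -/

set_option linter.all false

namespace Vale.Agent.P235.ST.H645

open Vale.Agent.P235 SimpleGraph Vale.Agent.P235.ST.H690

theorem nearAny_of_nearSurf {n g t : ℕ} {V : Type} {G : SimpleGraph V} (h : NearSurf n g t V G) :
    NearAnySurf g t V G := by
  obtain ⟨-, -, X, hX, h⟩ := h
  exact ⟨X, hX, fun u hu => (h u hu).imp_right Or.inl⟩

/-- `near_any` with the existence of the planar constant as hypothesis -/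
theorem near_any' (hP : ∃ K : ℝ, PlanarC K) : ∃ A : ℝ, 1 ≤ A ∧
    ∀ (g t : ℕ) (V : Type) [Finite V] (G : SimpleGraph V), G.Connected →
    NearAnySurf g t V G →
    DistortionLE G (A * (Real.log (g + 2) + Real.log (t + 2))) := by
  obtain ⟨K, hK⟩ := hP
  exact near_any (le_max_left 1 K) fun V _ G hc hσ => (hK V G hc hσ).mono (le_max_right _ _)

/-- all operations over all closed surfaces and any class `Q` with bounded `c₁` -/
theorem allOps_any (hP : ∃ K : ℝ, PlanarC K) (w j : ℕ)
    {Q : ∀ (V : Type), SimpleGraph V → Prop} {K₂ : ℝ}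
    (hQ : ∀ (V : Type) [Finite V] (G : SimpleGraph V), G.Connected → Q V G →
      DistortionLE G K₂) : ∃ K : ℝ, ∀ (V : Type) [Finite V]
    (G : SimpleGraph V), G.Connected →
    AllOps (fun V G => NearAnySurf w w V G ∨ Q V G) w j G → DistortionLE G K := by
  obtain ⟨A1, hA1, h1⟩ := near_any' hP
  obtain ⟨K', hK'⟩ := allOps_bounded
    (max (A1 * (Real.log (w + 2) + Real.log (w + 2))) K₂) w j
  refine ⟨K', fun V _ G hc hG => hK' _ (fun V _ G hc hG => ?_) V G hc hG⟩
  rcases hG with hG | hG
  · exact (h1 w w V G hc hG).mono (le_max_left _ _)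
  · exact (hQ V G hc hG).mono (le_max_right _ _)

end Vale.Agent.P235.ST.H645
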