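import Vale.Agent.P235.ST.H645.Quot
import Vale.Agent.P235.H206.SurfDefs

/-! P235 (helper645): double covers; rotation systems of non-orientable surfaces. -/

set_option linter.all false

namespace Vale.Agent.P235

open SimpleGraph

/-- The face permutation of a rotation system `σ` with signature `sg` (an edge `e` is twisted if
`sg e = true`) on the darts with a side: cross the edge, change the side if it is twisted, then take
the next dart in the rotation, backwards on the side `true`. Every face gives two cycles. -/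
def faceNextS {V : Type} {G : SimpleGraph V} (σ : Equiv.Perm G.Dart) (sg : Sym2 V → Bool) :
    Equiv.Perm (G.Dart × Bool) where
  toFun p := (if xor p.2 (sg p.1.edge) = true then σ⁻¹ p.1.symm else σ p.1.symm,
    xor p.2 (sg p.1.edge))
  invFun p := ((if p.2 = true then σ p.1 else σ⁻¹ p.1).symm,
    xor p.2 (sg (if p.2 = true then σ p.1 else σ⁻¹ p.1).edge))
  left_inv p := by
    obtain ⟨d, b⟩ := p
    cases b <;> cases h : sg d.edge <;> simp [h, Dart.edge_symm]
  right_inv p := by
    obtain ⟨d, b⟩ := p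
    cases b <;> simp [Dart.edge_symm]

/-- `(σ, sg)` is a rotation system with signature of the connected graph `G` on a non-orientable
surface of Euler genus at most `g` (the sphere with at most `g` crosscaps): `σ` permutes the darts
starting at any vertex cyclically, some closed walk has an odd number of twisted edges, and
`|V| - |E| + |faces| ≥ 2 - g`, where the faces are counted twice. -/
structure SignMap {V : Type} (g : ℕ) (G : SimpleGraph V) (σ : Equiv.Perm G.Dart)
    (sg : Sym2 V → Bool) : Prop where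
  fst : ∀ d, (σ d).fst = d.fst
  cyc : ∀ d d' : G.Dart, d.fst = d'.fst → σ.SameCycle d d'
  odd : ∃ (v : V) (p : G.Walk v v), Odd (p.edges.countP sg)
  euler : 2 * Nat.card G.edgeSet + 4 ≤ 2 * Nat.card V +
    Nat.card (Quotient (Equiv.Perm.SameCycle.setoid (faceNextS σ sg))) + 2 * g

end Vale.Agent.P235

namespace Vale.Agent.P235.ST.H645

open Vale.Agent.P235 SimpleGraph

variable {V : Type}

/-- the double cover -/
def cover (G : SimpleGraph V) (sg : Sym2 V → Bool) : SimpleGraph (V × Bool) where
  Adj p q := G.Adj p.1 q.1 ∧ q.2 = xor p.2 (sg s(p.1, q.1))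
  symm := ⟨fun p q h => ⟨h.1.symm, by
    have e : s(q.1, p.1) = s(p.1, q.1) := Sym2.eq_swap
    rw [e, h.2]
    cases p.2 <;> cases sg s(p.1, q.1) <;> rfl⟩⟩
  loopless := ⟨fun p h => G.loopless.irrefl _ h.1⟩

section walks

variable {G : SimpleGraph V} {sg : Sym2 V → Bool}

theorem lift {x y : V} (g : G.Walk x y) : ∀ b : Bool, ∃ (c : Bool)
    (g' : (cover G sg).Walk (x, b) (y, c)), c = xor b (decide (Odd (g.edges.countP sg))) ∧
    g'.edges.map (Sym2.map Prod.fst) = g.edges := by
  induction g with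
  | nil =>
    intro b
    exact ⟨b, Walk.nil, by simp, by simp⟩
  | @cons x z y h g ih =>
    intro b
    obtain ⟨c, g', hc, he⟩ := ih (xor b (sg s(x, z)))
    refine ⟨c, Walk.cons (show (cover G sg).Adj (x, b) (z, xor b (sg s(x, z))) from ⟨h, rfl⟩) g',
      ?_, ?_⟩
    · rw [hc, Walk.edges_cons, List.countP_cons]
      cases h1 : sg s(x, z)
      · simp
      · simp only [if_true, Nat.odd_add_one]
        cases b <;> by_cases h2 : Odd (g.edges.countP sg) <;> simp [h2]
    · rw [Walk.edges_cons, Walk.edges_cons, List.map_cons, he]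
      rfl

theorem proj {p q : V × Bool} (g : (cover G sg).Walk p q) :
    ∃ g' : G.Walk p.1 q.1, g'.edges = g.edges.map (Sym2.map Prod.fst) := by
  induction g with
  | nil => exact ⟨Walk.nil, by simp⟩
  | @cons p z q h g ih =>
    obtain ⟨g', he⟩ := ih
    refine ⟨Walk.cons h.1 g', ?_⟩
    rw [Walk.edges_cons, Walk.edges_cons, List.map_cons, he]
    rfl

/-- the deck map -/
def tau (p : V × Bool) : V × Bool := (p.1, !p.2)

theorem tau_tau (p : V × Bool) : tau (tau p) = p := by
  obtain ⟨x, b⟩ := p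
  simp [tau]

theorem deck {p q : V × Bool} (g : (cover G sg).Walk p q) :
    ∃ g' : (cover G sg).Walk (tau p) (tau q),
      g'.edges.map (Sym2.map Prod.fst) = g.edges.map (Sym2.map Prod.fst) := by
  induction g with
  | nil => exact ⟨Walk.nil, by simp⟩
  | @cons p z q h g ih =>
    obtain ⟨g', he⟩ := ih
    have h' : (cover G sg).Adj (tau p) (tau z) := by
      refine ⟨h.1, ?_⟩
      show (!z.2) = xor (!p.2) (sg s(p.1, z.1))
      rw [h.2]
      cases p.2 <;> cases sg s(p.1, z.1) <;> rfl
    refine ⟨Walk.cons h' g', ?_⟩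
    rw [Walk.edges_cons, Walk.edges_cons, List.map_cons, List.map_cons, he]
    rfl

/-- the cover is connected if some closed walk is one-sided -/
theorem cover_connected (hc : G.Connected)
    (ho : ∃ (v : V) (p : G.Walk v v), Odd (p.edges.countP sg)) : (cover G sg).Connected := by
  obtain ⟨v, p, hp⟩ := ho
  have h1 : ∀ b, (cover G sg).Reachable (v, b) (v, !b) := by
    intro b
    obtain ⟨c, g', h2, -⟩ := lift (sg := sg) p b
    have : c = !b := by
      rw [h2]
      simp [hp]
    subst this
    exact ⟨g'⟩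
  have h2 : ∀ b, (cover G sg).Reachable (v, b) (v, false) := by
    intro b
    cases b
    · exact Reachable.refl _
    · exact h1 true
  have h3 : ∀ q : V × Bool, (cover G sg).Reachable q (v, false) := by
    rintro ⟨x, b⟩
    obtain ⟨g⟩ := hc.preconnected x v
    obtain ⟨c, g', -, -⟩ := lift (sg := sg) g b
    exact Reachable.trans ⟨g'⟩ (h2 c)
  have : Nonempty (V × Bool) := ⟨(v, false)⟩
  exact ⟨fun p q => (h3 p).trans (h3 q).symm⟩

/-- lifted lengths -/
def lc (ℓ : Sym2 V → ℝ) (e : Sym2 (V × Bool)) : ℝ := ℓ (Sym2.map Prod.fst e)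

theorem lc_sum (ℓ : Sym2 V → ℝ) (l : List (Sym2 (V × Bool))) :
    (l.map (lc ℓ)).sum = ((l.map (Sym2.map Prod.fst)).map ℓ).sum := by
  rw [List.map_map]
  rfl

theorem pd_le {W : Type} {H : SimpleGraph W} {ℓ : Sym2 W → ℝ} (hℓ : ∀ e ∈ H.edgeSet, 0 < ℓ e)
    {x y : W} (g : H.Walk x y) : pathDist H ℓ x y ≤ (g.edges.map ℓ).sum := by
  refine ciInf_le ⟨0, ?_⟩ g
  rintro _ ⟨w, rfl⟩
  refine List.sum_nonneg fun a ha => ?_
  obtain ⟨e, he, rfl⟩ := List.mem_map.1 ha
  exact (hℓ e (w.edges_subset_edgeSet he)).le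

theorem lc_pos {ℓ : Sym2 V → ℝ} (hℓ : ∀ e ∈ G.edgeSet, 0 < ℓ e) :
    ∀ e ∈ (cover G sg).edgeSet, 0 < lc ℓ e := by
  intro e he
  induction e using Sym2.ind with
  | _ p q =>
    refine hℓ _ ?_
    show s(p.1, q.1) ∈ G.edgeSet
    exact ((mem_edgeSet (cover G sg)).1 he).1

theorem pd_deck (hcc : (cover G sg).Connected) {ℓ : Sym2 V → ℝ}
    (hℓ : ∀ e ∈ G.edgeSet, 0 < ℓ e) (p q : V × Bool) :
    pathDist (cover G sg) (lc ℓ) (tau p) (tau q) = pathDist (cover G sg) (lc ℓ) p q := by
  have key : ∀ p q : V × Bool,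
      pathDist (cover G sg) (lc ℓ) (tau p) (tau q) ≤ pathDist (cover G sg) (lc ℓ) p q := by
    intro p q
    have : Nonempty ((cover G sg).Walk p q) := hcc.preconnected p q
    refine le_ciInf fun g => ?_
    obtain ⟨g', he⟩ := deck g
    refine (pd_le (lc_pos hℓ) g').trans (le_of_eq ?_)
    rw [lc_sum, lc_sum, he]
  refine le_antisymm (key p q) ?_
  have := key (tau p) (tau q)
  rwa [tau_tau, tau_tau] at this

theorem pd_cover (hc : G.Connected) (hcc : (cover G sg).Connected) {ℓ : Sym2 V → ℝ}
    (hℓ : ∀ e ∈ G.edgeSet, 0 < ℓ e) (x y : V) :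
    min (pathDist (cover G sg) (lc ℓ) (x, false) (y, false))
      (pathDist (cover G sg) (lc ℓ) (x, false) (tau (y, false))) = pathDist G ℓ x y := by
  have h1 : ∀ p q : V × Bool, pathDist G ℓ p.1 q.1 ≤ pathDist (cover G sg) (lc ℓ) p q := by
    intro p q
    have : Nonempty ((cover G sg).Walk p q) := hcc.preconnected p q
    refine le_ciInf fun g => ?_
    obtain ⟨g', he⟩ := proj g
    refine (pd_le hℓ g').trans (le_of_eq ?_)
    rw [lc_sum, he]
  refine le_antisymm ?_ (le_min (h1 (x, false) (y, false)) (h1 (x, false) (tau (y, false))))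
  have : Nonempty (G.Walk x y) := hc.preconnected x y
  refine le_ciInf fun g => ?_
  obtain ⟨c, g', -, he⟩ := lift (sg := sg) g false
  have h2 : pathDist (cover G sg) (lc ℓ) (x, false) (y, c) ≤ (g.edges.map ℓ).sum := by
    refine (pd_le (lc_pos hℓ) g').trans (le_of_eq ?_)
    rw [lc_sum, he]
  cases c
  · exact (min_le_left _ _).trans h2
  · exact (min_le_right _ _).trans h2

/-- **`c₁` of a graph is at most 7 times `c₁` of a connected double cover.** -/
theorem cover_distortion [Finite V] (hc : G.Connected) (hcc : (cover G sg).Connected) {K : ℝ}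
    (hK : 0 ≤ K) (h : DistortionLE (cover G sg) K) : DistortionLE G (7 * K) := by
  intro ℓ hℓ
  obtain ⟨Ω, m, μ, f, hf⟩ := quot hK tau tau_tau (pd_deck hcc hℓ) (h (lc ℓ) (lc_pos hℓ))
  refine ⟨Ω, m, μ, fun x => f (x, false), fun x y => ?_⟩
  have h1 := hf (x, false) (y, false)
  beta_reduce at h1
  rw [pd_cover hc hcc hℓ x y] at h1
  exact h1

end walks

section perm

theorem inv_semi {α β : Type} {f : Equiv.Perm α} {F : Equiv.Perm β} {e : α → β}
    (h : ∀ x, F (e x) = e (f x)) (x : α) : F⁻¹ (e x) = e (f⁻¹ x) := by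
  rw [Equiv.Perm.inv_eq_iff_eq, h]
  simp

theorem zpow_semi {α β : Type} {f : Equiv.Perm α} {F : Equiv.Perm β} {e : α → β}
    (h : ∀ x, F (e x) = e (f x)) (n : ℤ) : ∀ x, (F ^ n) (e x) = e ((f ^ n) x) := by
  induction n using Int.induction_on with
  | zero => intro x; simp
  | succ n ih =>
    intro x
    rw [zpow_add_one, zpow_add_one, Equiv.Perm.mul_apply, Equiv.Perm.mul_apply, h, ih]
  | pred n ih =>
    intro x
    rw [zpow_sub_one, zpow_sub_one, Equiv.Perm.mul_apply, Equiv.Perm.mul_apply, inv_semi h, ih]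

theorem same_semi {α β : Type} {f : Equiv.Perm α} {F : Equiv.Perm β} {e : α → β}
    (h : ∀ x, F (e x) = e (f x)) {x y : α} (hxy : f.SameCycle x y) :
    F.SameCycle (e x) (e y) := by
  obtain ⟨n, hn⟩ := hxy
  exact ⟨n, by rw [zpow_semi h, hn]⟩

variable {G : SimpleGraph V} {sg : Sym2 V → Bool}

/-- the darts of the cover -/
def dartEquiv (G : SimpleGraph V) (sg : Sym2 V → Bool) : (cover G sg).Dart ≃ G.Dart × Bool where
  toFun D := (⟨(D.fst.1, D.snd.1), D.adj.1⟩, D.fst.2)
  invFun p := ⟨((p.1.fst, p.2), (p.1.snd, xor p.2 (sg p.1.edge))), ⟨p.1.adj, rfl⟩⟩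
  left_inv D := by
    obtain ⟨⟨⟨x, b⟩, ⟨y, c⟩⟩, h⟩ := D
    have h2 : c = xor b (sg s(x, y)) := h.2
    subst h2
    rfl
  right_inv p := rfl

/-- the rotation with sides -/
def rot (σ : Equiv.Perm G.Dart) : Equiv.Perm (G.Dart × Bool) where
  toFun p := (if p.2 = true then σ⁻¹ p.1 else σ p.1, p.2)
  invFun p := (if p.2 = true then σ p.1 else σ⁻¹ p.1, p.2)
  left_inv p := by
    obtain ⟨d, b⟩ := p
    cases b <;> simp
  right_inv p := by
    obtain ⟨d, b⟩ := p
    cases b <;> simp

/-- the rotation of the cover -/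
def rotC (sg : Sym2 V → Bool) (σ : Equiv.Perm G.Dart) : Equiv.Perm (cover G sg).Dart :=
  ((dartEquiv G sg).trans (rot σ)).trans (dartEquiv G sg).symm

theorem rotC_semi (σ : Equiv.Perm G.Dart) (z : G.Dart × Bool) :
    rotC sg σ ((dartEquiv G sg).symm z) = (dartEquiv G sg).symm (rot σ z) := by
  unfold rotC
  simp

theorem rotC_e (σ : Equiv.Perm G.Dart) (D : (cover G sg).Dart) :
    dartEquiv G sg (rotC sg σ D) = rot σ (dartEquiv G sg D) := by
  unfold rotC
  simp

theorem face_semi (σ : Equiv.Perm G.Dart) (D : (cover G sg).Dart) :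
    faceNextS σ sg (dartEquiv G sg D) = dartEquiv G sg (faceNext (rotC sg σ) D) := by
  have h1 : faceNext (rotC sg σ) D = rotC sg σ D.symm := rfl
  rw [h1, rotC_e]
  obtain ⟨⟨⟨x, b⟩, ⟨y, c⟩⟩, h⟩ := D
  have h2 : c = xor b (sg s(x, y)) := h.2
  subst h2
  rfl

theorem card_dart (H : SimpleGraph V) [Finite V] : Nat.card H.Dart = 2 * Nat.card H.edgeSet := by
  classical
  have := Fintype.ofFinite V
  rw [Nat.card_eq_fintype_card, Nat.card_eq_fintype_card,
    SimpleGraph.dart_card_eq_twice_card_edges, SimpleGraph.edgeFinset_card]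

/-- the rotation system of the cover -/
theorem surf_cover [Finite V] {g : ℕ} {σ : Equiv.Perm G.Dart} (h : SignMap g G σ sg) :
    SurfMap (2 * g) (cover G sg) (rotC sg σ) := by
  have hf : ∀ d, (σ⁻¹ d).fst = d.fst := by
    intro d
    have h1 := h.fst (σ⁻¹ d)
    have h2 : σ (σ⁻¹ d) = d := by simp
    rw [h2] at h1
    exact h1.symm
  refine ⟨?_, ?_, ?_⟩
  · intro D
    have e := congrArg (fun z : G.Dart × Bool => ((z.1.fst, z.2) : V × Bool))
      (rotC_e (sg := sg) σ D)
    have e1 : ((rotC sg σ D).fst : V × Bool) =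
      ((dartEquiv G sg (rotC sg σ D)).1.fst, (dartEquiv G sg (rotC sg σ D)).2) := rfl
    rw [e1]
    refine e.trans ?_
    obtain ⟨⟨⟨x, b⟩, ⟨y, c⟩⟩, hD⟩ := D
    cases b
    · show ((σ _).fst, false) = (x, false)
      rw [h.fst]
      rfl
    · show ((σ⁻¹ _).fst, true) = (x, true)
      rw [hf]
      rfl
  · intro D D' hDD
    have hs : ∀ z : G.Dart × Bool,
        rotC sg σ ((dartEquiv G sg).symm z) = (dartEquiv G sg).symm (rot σ z) := rotC_semi σ
    have h1 : (rot σ).SameCycle (dartEquiv G sg D) (dartEquiv G sg D') := by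
      have h2 : σ.SameCycle (dartEquiv G sg D).1 (dartEquiv G sg D').1 := by
        apply h.cyc
        show D.fst.1 = D'.fst.1
        rw [hDD]
      have h3 : (dartEquiv G sg D').2 = (dartEquiv G sg D).2 := by
        show D'.fst.2 = D.fst.2
        rw [hDD]
      have h4 : dartEquiv G sg D' = ((dartEquiv G sg D').1, (dartEquiv G sg D).2) := by
        rw [← h3]
      rw [h4]
      have h5 : dartEquiv G sg D = ((dartEquiv G sg D).1, (dartEquiv G sg D).2) := rfl
      rw [h5]
      cases hb : (dartEquiv G sg D).2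
      · exact same_semi (e := fun d => (d, false)) (fun d => by simp [rot]) h2
      · exact same_semi (f := σ⁻¹) (e := fun d => (d, true)) (fun d => by simp [rot])
          (Equiv.Perm.sameCycle_inv.2 h2)
    have h2 := same_semi hs h1
    simpa using h2
  · have h1 : Nat.card (Quotient (Equiv.Perm.SameCycle.setoid (faceNext (rotC sg σ)))) =
        Nat.card (Quotient (Equiv.Perm.SameCycle.setoid (faceNextS σ sg))) := by
      refine Nat.card_congr (Quotient.congr (dartEquiv G sg) fun a b => ?_)
      constructor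
      · intro hab
        exact same_semi (fun x => face_semi σ x) hab
      · intro hab
        have hs : ∀ z : G.Dart × Bool, faceNext (rotC sg σ) ((dartEquiv G sg).symm z) =
            (dartEquiv G sg).symm (faceNextS σ sg z) := by
          intro z
          rw [Equiv.eq_symm_apply, ← face_semi, Equiv.apply_symm_apply]
        have h5 := same_semi hs hab
        show (faceNext (rotC sg σ)).SameCycle a b
        simpa using h5
    have h2 : Nat.card (V × Bool) = 2 * Nat.card V := by
      rw [Nat.card_prod, mul_comm]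
      simp
    have h3 : Nat.card (cover G sg).edgeSet = 2 * Nat.card G.edgeSet := by
      have a1 := card_dart (cover G sg)
      have a2 := card_dart G
      have a3 : Nat.card (cover G sg).Dart = 2 * Nat.card G.Dart := by
        rw [Nat.card_congr (dartEquiv G sg), Nat.card_prod, mul_comm]
        simp
      omega
    have h4 := h.euler
    rw [h1, h2, h3]
    omega

end perm

end Vale.Agent.P235.ST.H645
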