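import Vale.Agent.P235.ST.H645.Cover
import Vale.Agent.P235.ST.H690.Closure

/-! P235 (helper645): all closed surfaces, orientable or not. -/

set_option linter.all false

namespace Vale.Agent.P235

open SimpleGraph

/-- After deleting some set of at most `t` vertices every component of `G` has at most one vertex,
or a rotation system of Euler genus at most `g` (orientable), or a rotation system with signature of
Euler genus at most `g` (non-orientable). -/
def NearAnySurf (g t : ℕ) (V : Type) (G : SimpleGraph V) : Prop :=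
  ∃ X : Set V, X.ncard ≤ t ∧ ∀ u ∉ X, (compSet G X u).Subsingleton ∨
    (∃ σ, SurfMap g (G.induce (compSet G X u)) σ) ∨
    ∃ σ sg, SignMap g (G.induce (compSet G X u)) σ sg

end Vale.Agent.P235

namespace Vale.Agent.P235.ST.H645

open Vale.Agent.P235 SimpleGraph Vale.Agent.P235.ST.H690

theorem log_two_g (g : ℕ) : Real.log (((2 * g : ℕ) : ℝ) + 2) ≤ 2 * Real.log ((g : ℝ) + 2) := by
  have hg : (0 : ℝ) ≤ g := Nat.cast_nonneg g
  rw [← Real.log_rpow (by linarith)]
  refine Real.log_le_log (by positivity) ?_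
  have : ((g : ℝ) + 2) ^ (2 : ℝ) = (g + 2) * (g + 2) := by
    rw [Real.rpow_two]
    ring
  rw [this]
  push_cast
  nlinarith

/-- non-orientable surfaces -/
theorem sign_c {C : ℝ} (hC : 1 ≤ C) (h : PlanarC C) (g : ℕ) (V : Type) [Finite V]
    (G : SimpleGraph V) (hc : G.Connected) (hσ : ∃ σ sg, SignMap g G σ sg) :
    DistortionLE G (70000000 * (C + 2 * Real.log (g + 2))) := by
  obtain ⟨σ, sg, hσ⟩ := hσ
  have hcc : (cover G sg).Connected := cover_connected hc hσ.odd
  have h1 := surf_c hC h (2 * g) (V × Bool) (cover G sg) hcc ⟨_, surf_cover hσ⟩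
  have hl := log_lb g
  have hl2 := log_lb (2 * g)
  have h2 := cover_distortion hc hcc (by positivity) h1
  refine h2.mono ?_
  have := log_two_g g
  linarith

/-- **all closed surfaces, after deleting `t` vertices** -/
theorem near_any {C : ℝ} (hC : 1 ≤ C) (h : PlanarC C) : ∃ A : ℝ, 1 ≤ A ∧
    ∀ (g t : ℕ) (V : Type) [Finite V] (G : SimpleGraph V), G.Connected →
    NearAnySurf g t V G →
    DistortionLE G (A * (Real.log (g + 2) + Real.log (t + 2))) := by
  obtain ⟨B, hB1, hB⟩ := apex_log'
  refine ⟨B * (70000000 * (2 * C + 2)), by nlinarith, ?_⟩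
  rintro g t V _ G hc ⟨X, hX, hcomp⟩
  have hlg := log_lb g
  have hlt := log_lb t
  have hK0 : 0 ≤ 70000000 * (C + 2 * Real.log ((g : ℝ) + 2)) := by
    have : 0 ≤ C := by linarith
    positivity
  refine (hB _ hK0 t V G hc X hX fun u hu => ?_).mono ?_
  · have hS := comp_connected (G := G) hu
    rcases hcomp u hu with h1 | hσ | hσ
    · have : Subsingleton (compSet G X u) := h1.coe_sort
      exact distortion_subsingleton _ hS.nonempty
    · refine (surf_c hC h g _ _ hS hσ).mono ?_
      linarith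
    · exact sign_c hC h g _ _ hS hσ
  · have e1 : C ≤ 2 * C * Real.log ((g : ℝ) + 2) := by nlinarith
    have e2 : 70000000 * (C + 2 * Real.log ((g : ℝ) + 2)) + Real.log ((t : ℝ) + 2) ≤
        70000000 * (2 * C + 2) * (Real.log ((g : ℝ) + 2) + Real.log ((t : ℝ) + 2)) := by
      nlinarith
    have := mul_le_mul_of_nonneg_left e2 (show (0 : ℝ) ≤ B by linarith)
    nlinarith

/-- rounds over the class `NearAnySurf` -/
theorem strip_any {C : ℝ} (hC : 1 ≤ C) (h : PlanarC C) : ∃ A : ℝ, 1 ≤ A ∧
    ∀ (g t s g' k : ℕ) (V : Type) [Finite V] (G : SimpleGraph V), G.Connected →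
    (∀ ℓ : Sym2 V → ℝ, (∀ e ∈ G.edgeSet, 0 < ℓ e) → SurfStrip (NearAnySurf g t) s g' k G ℓ) →
    DistortionLE G (A * (Real.log (g + 2) + Real.log (t + 2) +
      k * (g' + Real.log (s + 2)))) := by
  obtain ⟨A, hA1, hA⟩ := near_any hC h
  refine ⟨5000000 * A, by linarith, ?_⟩
  intro g t s g' k V _ G hc hstrip
  have hlg := log_lb g
  have hlt := log_lb t
  have hls := log_lb s
  have h1 : 1 ≤ A * (Real.log (g + 2) + Real.log (t + 2)) := by nlinarith
  refine (surfStrip_distortion (NearAnySurf g t) h1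
    (fun V _ G hc hG => hA g t V G hc hG) s g' k V G hc hstrip).mono ?_
  have hk : 0 ≤ (k : ℝ) * (g' + Real.log ((s : ℝ) + 2)) := by positivity
  nlinarith

/-- path decompositions of adhesion `w` -/
theorem path_any {C : ℝ} (hC : 1 ≤ C) (h : PlanarC C) : ∃ A : ℝ, 1 ≤ A ∧
    ∀ (g t w N : ℕ) (V : Type) [Finite V] (G : SimpleGraph V), G.Connected →
    ∀ (B : Fin N → Set V), PathDec G w B →
    (∀ i, ∀ u ∈ B i, NearAnySurf g t _ (G.induce (compSet G (B i)ᶜ u))) →
    DistortionLE G (A * (Real.log (g + 2) + Real.log (t + 2) + √w)) := by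
  obtain ⟨A, hA1, hA⟩ := near_any hC h
  refine ⟨3328000 * A, by linarith, ?_⟩
  intro g t w N V _ G hc B hB hnear
  have hlg := log_lb g
  have hlt := log_lb t
  have h1 : 1 ≤ A * (Real.log (g + 2) + Real.log (t + 2)) := by nlinarith
  refine (pathSum_sqrt w h1 V G hc N B hB fun i u hu => ?_).mono ?_
  · exact hA g t _ _ (comp_connected (by simpa using hu)) (hnear i u hu)
  · have hw : 0 ≤ √(w : ℝ) := Real.sqrt_nonneg _
    nlinarith

end Vale.Agent.P235.ST.H645
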