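import Vale.Agent.P235.H263.CutEmb
import Vale.Agent.P235.Comp.Core
import Vale.Agent.P235.Bdl.B1

/-! P235 (helper645): the quotient of an `L₁` metric by an isometric involution. -/

set_option linter.all false

namespace Vale.Agent.P235.ST.H645

open Finset Vale.Agent.P235

section alg

variable {ι : Type} [Fintype ι] (w : ι → ℝ) (v v' : ι → ℝ)

/-- mass of `v` -/
noncomputable def mass (w v : ι → ℝ) : ℝ := ∑ i, w i * |v i|

/-- the product part -/
noncomputable def prodPart (w v v' : ι → ℝ) : ℝ :=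
  ∑ i, ∑ j, w i * w j * |v i * v j * (mass w v)⁻¹ - v' i * v' j * (mass w v')⁻¹|

variable {w v v'}

theorem mass_nonneg (hw : ∀ i, 0 ≤ w i) : 0 ≤ mass w v :=
  sum_nonneg fun i _ => mul_nonneg (hw i) (abs_nonneg _)

theorem prodPart_symm : prodPart w v v' = prodPart w v' v := by
  unfold prodPart
  refine sum_congr rfl fun i _ => sum_congr rfl fun j _ => ?_
  rw [abs_sub_comm]

theorem prodPart_neg : prodPart w v (fun i => - v' i) = prodPart w v v' := by
  have h : mass w (fun i => - v' i) = mass w v' := by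
    unfold mass
    simp only [abs_neg]
  unfold prodPart
  rw [h]
  refine sum_congr rfl fun i _ => sum_congr rfl fun j _ => ?_
  rw [neg_mul_neg]

theorem mass_diff (hw : ∀ i, 0 ≤ w i) :
    |mass w v - mass w v'| ≤ ∑ i, w i * |v i - v' i| := by
  unfold mass
  rw [← sum_sub_distrib]
  refine (abs_sum_le_sum_abs _ _).trans (sum_le_sum fun i _ => ?_)
  rw [← mul_sub, abs_mul, abs_of_nonneg (hw i)]
  exact mul_le_mul_of_nonneg_left (abs_abs_sub_abs_le _ _) (hw i)

theorem sum_prod (a b : ι → ℝ) : ∑ i, ∑ j, a i * b j = (∑ i, a i) * ∑ j, b j := by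
  rw [sum_mul_sum]

theorem prodPart_le_aux (hw : ∀ i, 0 ≤ w i) (h : mass w v' ≤ mass w v) :
    prodPart w v v' ≤ 3 * ∑ i, w i * |v i - v' i| := by
  set R := mass w v with hR
  set R' := mass w v' with hR'
  set Δ := ∑ i, w i * |v i - v' i| with hΔ
  have hR0 : 0 ≤ R := mass_nonneg hw
  have hR0' : 0 ≤ R' := mass_nonneg hw
  have hΔ0 : 0 ≤ Δ := sum_nonneg fun i _ => mul_nonneg (hw i) (abs_nonneg _)
  have hd : R - R' ≤ Δ := (le_abs_self _).trans (mass_diff hw)
  have hr0 : 0 ≤ R⁻¹ := inv_nonneg.2 hR0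
  have h1 : prodPart w v v' ≤ ∑ i, ∑ j, ((w i * |v i|) * (R⁻¹ * (w j * |v j - v' j|)) +
      (R⁻¹ * (w i * |v i - v' i|)) * (w j * |v' j|) +
      (w i * |v' i|) * (|R⁻¹ - R'⁻¹| * (w j * |v' j|))) := by
    unfold prodPart
    refine sum_le_sum fun i _ => sum_le_sum fun j _ => ?_
    have e : v i * v j * R⁻¹ - v' i * v' j * R'⁻¹ =
      (v i * (R⁻¹ * (v j - v' j)) + R⁻¹ * (v i - v' i) * v' j) +
        v' i * ((R⁻¹ - R'⁻¹) * v' j) := by ring
    have e2 : |v i * v j * R⁻¹ - v' i * v' j * R'⁻¹| ≤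
      |v i| * (R⁻¹ * |v j - v' j|) + R⁻¹ * |v i - v' i| * |v' j| +
        |v' i| * (|R⁻¹ - R'⁻¹| * |v' j|) := by
      rw [e]
      refine (abs_add_le _ _).trans (add_le_add ((abs_add_le _ _).trans (le_of_eq ?_))
        (le_of_eq ?_))
      · rw [abs_mul, abs_mul, abs_mul, abs_mul, abs_of_nonneg hr0]
      · rw [abs_mul, abs_mul]
    have hww : 0 ≤ w i * w j := mul_nonneg (hw i) (hw j)
    refine (mul_le_mul_of_nonneg_left e2 hww).trans (le_of_eq ?_)
    ring
  refine h1.trans ?_
  have h2 : ∑ i, ∑ j, ((w i * |v i|) * (R⁻¹ * (w j * |v j - v' j|)) +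
      (R⁻¹ * (w i * |v i - v' i|)) * (w j * |v' j|) +
      (w i * |v' i|) * (|R⁻¹ - R'⁻¹| * (w j * |v' j|))) =
      R * (R⁻¹ * Δ) + (R⁻¹ * Δ) * R' + R' * (|R⁻¹ - R'⁻¹| * R') := by
    simp only [sum_add_distrib, ← mul_sum, ← sum_mul]
    rfl
  rw [h2]
  have h3 : R * (R⁻¹ * Δ) ≤ Δ := by
    rw [← mul_assoc]
    exact mul_le_of_le_one_left hΔ0 mul_inv_le_one
  have h4 : (R⁻¹ * Δ) * R' ≤ Δ := by
    have : R⁻¹ * Δ * R' ≤ R⁻¹ * Δ * R := mul_le_mul_of_nonneg_left h (mul_nonneg hr0 hΔ0)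
    have e : R⁻¹ * Δ * R = R * (R⁻¹ * Δ) := by ring
    linarith
  have h5 : R' * (|R⁻¹ - R'⁻¹| * R') ≤ Δ := by
    rcases hR0'.eq_or_lt with h6 | h6
    · rw [← h6, zero_mul]
      exact hΔ0
    · have h7 : 0 < R := lt_of_lt_of_le h6 h
      have h8 : R⁻¹ ≤ R'⁻¹ := inv_anti₀ h6 h
      rw [abs_of_nonpos (by linarith)]
      have e : R' * (-(R⁻¹ - R'⁻¹) * R') = R' * (1 - R' / R) := by
        field_simp
        ring
      rw [e]
      have e2 : R' * (1 - R' / R) = (R' / R) * (R - R') := by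
        field_simp
      rw [e2]
      have h9 : R' / R ≤ 1 := (div_le_one h7).2 h
      have h10 : (R' / R) * (R - R') ≤ 1 * (R - R') :=
        mul_le_mul_of_nonneg_right h9 (by linarith)
      linarith
  linarith

theorem prodPart_le (hw : ∀ i, 0 ≤ w i) :
    prodPart w v v' ≤ 3 * ∑ i, w i * |v i - v' i| := by
  rcases le_total (mass w v') (mass w v) with h | h
  · exact prodPart_le_aux hw h
  · rw [prodPart_symm]
    refine (prodPart_le_aux hw h).trans (le_of_eq ?_)
    congr 1
    exact sum_congr rfl fun i _ => by rw [abs_sub_comm]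

theorem prodPart_ge_one (hw : ∀ i, 0 ≤ w i) (h1 : ∀ i, v i * v i = |v i|)
    (h1' : ∀ i, |v' i| ≤ 1) (h2 : ∀ i, |v i| ≤ 1) :
    mass w v - |∑ i, w i * (v i * v' i)| ≤ prodPart w v v' := by
  set R := mass w v with hR
  set R' := mass w v' with hR'
  set T := ∑ i, w i * (v i * v' i) with hT
  have hR0 : 0 ≤ R := mass_nonneg hw
  have hR0' : 0 ≤ R' := mass_nonneg hw
  have hTR : |T| ≤ R' := by
    rw [hT, hR']
    refine (abs_sum_le_sum_abs _ _).trans (sum_le_sum fun i _ => ?_)
    rw [abs_mul, abs_of_nonneg (hw i), abs_mul]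
    refine mul_le_mul_of_nonneg_left ?_ (hw i)
    exact mul_le_of_le_one_left (abs_nonneg _) (h2 i)
  have e1 : ∑ i, ∑ j, w i * w j * ((v i * v j * R⁻¹ - v' i * v' j * R'⁻¹) * (v i * v j)) =
      R * R * R⁻¹ - T * T * R'⁻¹ := by
    have e : ∀ i j, w i * w j * ((v i * v j * R⁻¹ - v' i * v' j * R'⁻¹) * (v i * v j)) =
        (w i * |v i|) * (R⁻¹ * (w j * |v j|)) -
          (w i * (v i * v' i)) * (R'⁻¹ * (w j * (v j * v' j))) := by
      intro i j
      rw [← h1 i, ← h1 j]
      ring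
    simp only [e, sum_sub_distrib, ← mul_sum, ← sum_mul]
    have : ∑ i, w i * |v i| = R := rfl
    rw [this]
    ring
  have h3 : R * R * R⁻¹ - T * T * R'⁻¹ ≤ prodPart w v v' := by
    rw [← e1]
    unfold prodPart
    refine sum_le_sum fun i _ => sum_le_sum fun j _ => ?_
    refine mul_le_mul_of_nonneg_left ?_ (mul_nonneg (hw i) (hw j))
    refine (le_abs_self _).trans ?_
    rw [abs_mul, abs_mul (v i)]
    refine mul_le_of_le_one_right (abs_nonneg _) ?_
    exact mul_le_one₀ (h2 i) (abs_nonneg _) (h2 j)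
  have h4 : R * R * R⁻¹ = R := by
    rcases hR0.eq_or_lt with h | h
    · rw [← h]
      simp
    · field_simp
  have h5 : T * T * R'⁻¹ ≤ |T| := by
    rw [← abs_mul_abs_self T]
    have h6 : |T| * R'⁻¹ ≤ 1 := by
      have : |T| * R'⁻¹ ≤ R' * R'⁻¹ :=
        mul_le_mul_of_nonneg_right hTR (inv_nonneg.2 hR0')
      exact this.trans mul_inv_le_one
    rw [mul_assoc]
    exact mul_le_of_le_one_right (abs_nonneg _) h6
  linarith

theorem prodPart_ge (hw : ∀ i, 0 ≤ w i) (h1 : ∀ i, v i = -1 ∨ v i = 0 ∨ v i = 1)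
    (h1' : ∀ i, v' i = -1 ∨ v' i = 0 ∨ v' i = 1) :
    min (∑ i, w i * |v i - v' i|) (∑ i, w i * |v i + v' i|) ≤ 2 * prodPart w v v' := by
  have a1 : ∀ i, v i * v i = |v i| := fun i => by
    rcases h1 i with h | h | h <;> rw [h] <;> norm_num
  have a1' : ∀ i, v' i * v' i = |v' i| := fun i => by
    rcases h1' i with h | h | h <;> rw [h] <;> norm_num
  have a2 : ∀ i, |v i| ≤ 1 := fun i => by
    rcases h1 i with h | h | h <;> rw [h] <;> norm_num
  have a2' : ∀ i, |v' i| ≤ 1 := fun i => by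
    rcases h1' i with h | h | h <;> rw [h] <;> norm_num
  have b1 := prodPart_ge_one (v := v) (v' := v') hw a1 a2' a2
  have b2 := prodPart_ge_one (v := v') (v' := v) hw a1' a2 a2'
  rw [prodPart_symm] at b2
  have e : ∑ i, w i * (v' i * v i) = ∑ i, w i * (v i * v' i) :=
    sum_congr rfl fun i _ => by ring
  rw [e] at b2
  have c1 : ∑ i, w i * |v i - v' i| ≤ mass w v + mass w v' - 2 * ∑ i, w i * (v i * v' i) := by
    unfold mass
    rw [mul_sum, ← sum_add_distrib, ← sum_sub_distrib]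
    refine sum_le_sum fun i _ => ?_
    have : |v i - v' i| ≤ |v i| + |v' i| - 2 * (v i * v' i) := by
      rcases h1 i with h | h | h <;> rcases h1' i with h' | h' | h' <;> rw [h, h'] <;> norm_num
    have := mul_le_mul_of_nonneg_left this (hw i)
    linarith
  have c2 : ∑ i, w i * |v i + v' i| ≤ mass w v + mass w v' + 2 * ∑ i, w i * (v i * v' i) := by
    unfold mass
    rw [mul_sum, ← sum_add_distrib, ← sum_add_distrib]
    refine sum_le_sum fun i _ => ?_
    have : |v i + v' i| ≤ |v i| + |v' i| + 2 * (v i * v' i) := by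
      rcases h1 i with h | h | h <;> rcases h1' i with h' | h' | h' <;> rw [h, h'] <;> norm_num
    have := mul_le_mul_of_nonneg_left this (hw i)
    linarith
  rcases le_total 0 (∑ i, w i * (v i * v' i)) with h | h
  · rw [abs_of_nonneg h] at b1 b2
    exact (min_le_left _ _).trans (by linarith)
  · rw [abs_of_nonpos h] at b1 b2
    exact (min_le_right _ _).trans (by linarith)

end alg

/-- **Quotient of an `L₁` metric by an isometric involution.** -/
theorem quot {V : Type} [Finite V] {d : V → V → ℝ} {K : ℝ} (hK : 0 ≤ K) (τ : V → V)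
    (hτ : ∀ x, τ (τ x) = x) (hd : ∀ x y, d (τ x) (τ y) = d x y)
    (h : EmbedsL1 d K) : EmbedsL1 (fun x y => min (d x y) (d x (τ y))) (7 * K) := by
  classical
  obtain ⟨ρ, h1, h2, h3, h0, hnn, hs, ht⟩ := h.toL1S
  obtain ⟨ι, _, w, c, hw, hF⟩ := h1.isL1
  set a : ι → V → ℝ := fun i x => if c i x then 1 else 0 with ha
  set m : ι → V → ℝ := fun i x => a i x + a i (τ x) with hm
  set v : V → ι → ℝ := fun x i => a i x - a i (τ x) with hv
  have hρ : ∀ x y, ρ x y = ∑ i, w i * |a i x - a i y| := by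
    intro x y
    rw [hF]
    refine sum_congr rfl fun i _ => ?_
    simp only [ha]
    cases c i x <;> cases c i y <;> simp
  have hv3 : ∀ x i, v x i = -1 ∨ v x i = 0 ∨ v x i = 1 := by
    intro x i
    simp only [hv, ha]
    cases c i x <;> cases c i (τ x) <;> simp
  have hvτ : ∀ x, v (τ x) = fun i => - v x i := by
    intro x
    funext i
    simp only [hv, hτ]
    ring
  have hmτ : ∀ x i, m i (τ x) = m i x := by
    intro x i
    simp only [hm, hτ]
    ring
  -- the two sums
  have hD : ∀ x y, (∑ i, w i * |m i x - m i y|) ≤ ρ x y + ρ (τ x) (τ y) := by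
    intro x y
    rw [hρ, hρ, ← sum_add_distrib]
    refine sum_le_sum fun i _ => ?_
    rw [← mul_add]
    refine mul_le_mul_of_nonneg_left ?_ (hw i)
    have e : m i x - m i y = (a i x - a i y) + (a i (τ x) - a i (τ y)) := by
      simp only [hm]
      ring
    rw [e]
    exact abs_add_le _ _
  have hV : ∀ x y, (∑ i, w i * |v x i - v y i|) ≤ ρ x y + ρ (τ x) (τ y) := by
    intro x y
    rw [hρ, hρ, ← sum_add_distrib]
    refine sum_le_sum fun i _ => ?_
    rw [← mul_add]
    refine mul_le_mul_of_nonneg_left ?_ (hw i)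
    have e : v x i - v y i = (a i x - a i y) - (a i (τ x) - a i (τ y)) := by
      simp only [hv]
      ring
    rw [e]
    exact abs_sub _ _
  have hlow : ∀ x y, ρ x y + ρ (τ x) (τ y) ≤
      (∑ i, w i * |m i x - m i y|) + ∑ i, w i * |v x i - v y i| := by
    intro x y
    rw [hρ, hρ, ← sum_add_distrib, ← sum_add_distrib]
    refine sum_le_sum fun i _ => ?_
    rw [← mul_add, ← mul_add]
    refine mul_le_mul_of_nonneg_left ?_ (hw i)
    have e1 : m i x - m i y = (a i x - a i y) + (a i (τ x) - a i (τ y)) := by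
      simp only [hm]
      ring
    have e2 : v x i - v y i = (a i x - a i y) - (a i (τ x) - a i (τ y)) := by
      simp only [hv]
      ring
    rw [e1, e2]
    set p := a i x - a i y
    set q := a i (τ x) - a i (τ y)
    rcases abs_cases p with ⟨hp, _⟩ | ⟨hp, _⟩ <;> rcases abs_cases q with ⟨hq, _⟩ | ⟨hq, _⟩ <;>
      rcases abs_cases (p + q) with ⟨hpq, _⟩ | ⟨hpq, _⟩ <;>
      rcases abs_cases (p - q) with ⟨hpq', _⟩ | ⟨hpq', _⟩ <;> linarith
  -- the family
  set S : V → V → ℝ := fun x y => (∑ i, w i * |m i x - m i y|) / 2 + prodPart w (v x) (v y)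
    with hS
  have hup1 : ∀ x y, S x y ≤ 7 / 2 * (ρ x y + ρ (τ x) (τ y)) := by
    intro x y
    have h4 := hD x y
    have h5 := prodPart_le (w := w) (v := v x) (v' := v y) hw
    have h6 := hV x y
    simp only [hS]
    linarith
  have hSτ : ∀ x y, S x (τ y) = S x y := by
    intro x y
    simp only [hS, hmτ, hvτ, prodPart_neg]
  have hup : ∀ x y, S x y ≤ 7 * K * d x y := by
    intro x y
    have h4 := hup1 x y
    have h5 := h3 x y
    have h6 := h3 (τ x) (τ y)
    rw [hd] at h6
    linarith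
  have hlo : ∀ x y, min (d x y) (d x (τ y)) ≤ S x y := by
    intro x y
    have h4 := prodPart_ge (w := w) (v := v x) (v' := v y) hw (hv3 x) (hv3 y)
    have h5 := hlow x y
    have h6 := hlow x (τ y)
    rw [hτ] at h6
    have e1 : ∑ i, w i * |m i x - m i (τ y)| = ∑ i, w i * |m i x - m i y| :=
      sum_congr rfl fun i _ => by rw [hmτ]
    have e2 : ∑ i, w i * |v x i - v (τ y) i| = ∑ i, w i * |v x i + v y i| :=
      sum_congr rfl fun i _ => by rw [hvτ]; simp only [sub_neg_eq_add]
    rw [e1, e2] at h6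
    have h7 : d (τ x) y = d x (τ y) := by
      have := hd (τ x) y
      rw [hτ] at this
      exact this.symm
    have h8 : 2 * d x y ≤ ρ x y + ρ (τ x) (τ y) := by
      have := h2 x y
      have := h2 (τ x) (τ y)
      rw [hd] at this
      linarith
    have h9 : 2 * d x (τ y) ≤ ρ x (τ y) + ρ (τ x) y := by
      have := h2 x (τ y)
      have := h2 (τ x) y
      rw [h7] at this
      linarith
    simp only [hS]
    rcases min_choice (∑ i, w i * |v x i - v y i|) (∑ i, w i * |v x i + v y i|) with h10 | h10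
    · rw [h10] at h4
      refine (min_le_left _ _).trans ?_
      linarith
    · rw [h10] at h4
      refine (min_le_right _ _).trans ?_
      linarith
  set P : ι ⊕ (ι × ι) → ℝ := Sum.elim (fun i => w i / 2) (fun p : ι × ι => w p.1 * w p.2) with hP
  set f : ι ⊕ (ι × ι) → V → ℝ := Sum.elim (fun i x => m i x)
    (fun (p : ι × ι) x => v x p.1 * v x p.2 * (mass w (v x))⁻¹) with hf
  have hfam : ∀ x y, S x y = ∑ o, P o * |f o x - f o y| := by
    intro x y
    rw [Fintype.sum_sum_type, Fintype.sum_prod_type]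
    simp only [Sum.elim_inl, Sum.elim_inr, hS, prodPart, hP, hf]
    congr 1
    rw [sum_div]
    exact sum_congr rfl fun i _ => by ring
  refine H263.embeds_of_family (P := P) ?_ f ?_ ?_
  · rintro (i | p)
    · exact div_nonneg (hw i) (by norm_num)
    · exact mul_nonneg (hw _) (hw _)
  · intro x y
    exact (hlo x y).trans (hfam x y).le
  · intro x y
    refine (hfam x y).symm.le.trans ?_
    have h4 := hup x y
    have h5 := hup x (τ y)
    rw [hSτ] at h5
    rcases min_choice (d x y) (d x (τ y)) with h6 | h6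
    · show S x y ≤ 7 * K * min (d x y) (d x (τ y))
      rw [h6]
      exact h4
    · show S x y ≤ 7 * K * min (d x y) (d x (τ y))
      rw [h6]
      exact h5

end Vale.Agent.P235.ST.H645
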